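import Vale.Agent.P096.Main
import Vale.Agent.P096.Defs

/-! The strong Kadison-Kastler conclusion for linearly close and for complemented pairs. -/

universe u

open Vale.Agent.P096 in
theorem Vale.Agent.Results.P096.Linear.result (ε : ℝ) (hε : 0 < ε) :
    (∃ δ : ℝ, 0 < δ ∧ ∀ (H : Type u) [NormedAddCommGroup H] [InnerProductSpace ℂ H] [CompleteSpace H]
      (M N : VonNeumannAlgebra H), kk M N < δ → LinClose M N δ → ConjNear M N ε) ∧
    ∀ K : ℝ, ∃ δ : ℝ, 0 < δ ∧ ∀ (H : Type u) [NormedAddCommGroup H] [InnerProductSpace ℂ H]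
      [CompleteSpace H] (M N : VonNeumannAlgebra H), kk M N < δ → Compl M N K → ConjNear M N ε := by
  obtain ⟨δ, δ0, h⟩ := main.{u} ε hε
  refine ⟨⟨δ, δ0, fun H _ _ _ M N d ⟨T, hT⟩ => h H M N (fun y hy => near
    (Metric.hausdorffDist_comm.trans_lt d) hy) T (fun x hx => (hT x hx).1) fun x hx => (hT x hx).2⟩,
    fun K => ⟨δ / (|K| + 1), by positivity, fun H _ _ _ M N d ⟨E, h1, h2, h3⟩ => ?_⟩⟩
  have k : δ / (|K| + 1) ≤ δ := div_le_self δ0.le (by linarith [abs_nonneg K])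
  refine h H M N (fun y hy => near ((Metric.hausdorffDist_comm.trans_lt d).trans_le k) hy) E h1
    fun x hx => ?_
  obtain ⟨y, hy, e⟩ := near d hx
  have e1 : E x - x = E (x + -y) - (x - y) := by rw [map_add, h2 _ (neg_mem hy)]; abel
  have e2 := (h3 x hx _ (neg_mem hy)).trans
    (mul_le_mul_of_nonneg_right (le_abs_self K) (norm_nonneg _))
  rw [e1]
  refine (norm_sub_le _ _).trans ?_
  rw [← sub_eq_add_neg] at e2 ⊢
  calc _ ≤ (|K| + 1) * ‖x - y‖ := by linarith
    _ ≤ (|K| + 1) * (δ / (|K| + 1) * ‖x‖) := by gcongr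
    _ = δ * ‖x‖ := by field_simp
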